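import Vale.Agent.P154.Anti.BoxNode
import Vale.Agent.P154.Anti.SmallX
import Vale.Agent.P154.Anti.Reg5.Scalar
import Vale.Agent.P154.Anti.Reg5.BoxData

/-!
# Three states on the quinary tree

The antiferromagnetic chain does not reconstruct at or below the Kesten-Stigum bound on the
regular tree with five children: a window of edge parameters around the critical one.
-/

namespace Vale.Agent.P154.Anti.Reg5

open Filter Topology Box Vale.Agent.P154.Tree

/-- The data of the window. -/
def W : List WData := [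
  ⟨(-44721/100000), (-223/500), 0, 1, 100000000, 100000000⟩,
  ⟨(-44721/100000), (-223/500), 2, 3, 100000000, 100000000⟩,
  ⟨(-44721/100000), (-223/500), 4, 5, 100000000, 100000000⟩,
  ⟨(-44721/100000), (-223/500), 6, 7, 100000000, 100000000⟩,
  ⟨(-44721/100000), (-223/500), 8, 9, 100000000, 100000000⟩,
  ⟨(-44721/100000), (-223/500), 10, 11, 100000000, 100000000⟩,
  ⟨(-44721/100000), (-223/500), 12, 13, 100000000, 100000000⟩,
  ⟨(-44721/100000), (-223/500), 14, 15, 100000000, 100000000⟩,
  ⟨(-44721/100000), (-223/500), 16, 17, 100000000, 100000000⟩,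
  ⟨(-44721/100000), (-223/500), 18, 19, 100000000, 100000000⟩,
  ⟨(-44721/100000), (-223/500), 20, 21, 100000000, 100000000⟩,
  ⟨(-44721/100000), (-223/500), 22, 23, 100000000, 100000000⟩,
  ⟨(-44721/100000), (-223/500), 24, 25, 100000000, 100000000⟩,
  ⟨(-44721/100000), (-223/500), 26, 27, 100000000, 100000000⟩,
  ⟨(-44721/100000), (-223/500), 28, 29, 100000000, 100000000⟩,
  ⟨(-44721/100000), (-223/500), 30, 31, 100000000, 100000000⟩,
  ⟨(-44721/100000), (-223/500), 32, 33, 100000000, 100000000⟩,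
  ⟨(-44721/100000), (-223/500), 34, 35, 100000000, 100000000⟩,
  ⟨(-44721/100000), (-223/500), 36, 37, 100000000, 100000000⟩,
  ⟨(-44721/100000), (-223/500), 38, 39, 100000000, 100000000⟩,
  ⟨(-44721/100000), (-223/500), 40, 41, 100000000, 100000000⟩,
  ⟨(-44721/100000), (-223/500), 42, 43, 100000000, 100000000⟩,
  ⟨(-44721/100000), (-223/500), 44, 45, 100000000, 100000000⟩,
  ⟨(-44721/100000), (-223/500), 46, 47, 100000000, 100000000⟩,
  ⟨(-44721/100000), (-223/500), 48, 49, 100000000, 100000000⟩,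
  ⟨(-44721/100000), (-223/500), 50, 51, 100000000, 100000000⟩,
  ⟨(-44721/100000), (-223/500), 52, 53, 100000000, 100000000⟩,
  ⟨(-44721/100000), (-223/500), 54, 55, 100000000, 100000000⟩,
  ⟨(-44721/100000), (-223/500), 56, 57, 100000000, 100000000⟩,
  ⟨(-44721/100000), (-223/500), 58, 59, 100000000, 100000000⟩,
  ⟨(-44721/100000), (-223/500), 60, 61, 100000000, 100000000⟩,
  ⟨(-44721/100000), (-223/500), 62, 63, 100000000, 100000000⟩,
  ⟨(-44721/100000), (-223/500), 64, 65, 100000000, 100000000⟩,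
  ⟨(-44721/100000), (-223/500), 66, 67, 100000000, 100000000⟩,
  ⟨(-44721/100000), (-223/500), 68, 69, 100000000, 100000000⟩,
  ⟨(-44721/100000), (-223/500), 70, 71, 100000000, 100000000⟩,
  ⟨(-44721/100000), (-223/500), 72, 73, 100000000, 100000000⟩,
  ⟨(-44721/100000), (-223/500), 74, 75, 100000000, 100000000⟩,
  ⟨(-44721/100000), (-223/500), 76, 77, 100000000, 100000000⟩,
  ⟨(-44721/100000), (-223/500), 78, 79, 100000000, 100000000⟩,
  ⟨(-44721/100000), (-223/500), 80, 81, 100000000, 100000000⟩,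
  ⟨(-44721/100000), (-223/500), 82, 83, 100000000, 100000000⟩,
  ⟨(-44721/100000), (-223/500), 84, 85, 100000000, 100000000⟩]

theorem basis_ok : basisOk C = true := by decide +kernel

theorem check : windowCheck C E (-4473/10000) (-44721/100000) V W = true := by decide +kernel

theorem nodes : WindowPW (fun j => expo3 (E j)) V (((-4473/10000) : ℚ) : ℝ) (((-44721/100000) : ℚ) : ℝ) :=
  windowPW_of_check box_ok basis_ok E _ _ V W check

/-- Nonreconstruction on the quinary tree up to the Kesten-Stigum bound. -/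
theorem tendsto_adv_five {mu : ℝ} (hmu : mu ≤ 0) (hks : (5 : ℝ) * mu ^ 2 ≤ 1) :
    Tendsto (adv 3 (regLaw 5) mu) atTop (𝓝 0) := by
  have hE : ∀ j, (E j).n0 + (E j).n1 + (E j).n2 = 6 := by decide
  have hs := fun j => expo3_simplex (by norm_num : (6 : ℕ) ≠ 0) (hE j)
  refine tendsto_adv_regular_of_window (A := fun j => expo3 (E j)) (fun j => (hs j).1)
    (fun j => (hs j).2) (r := 0) (m := 1 / 3) (by norm_num) ?_ ?_ ?_ ?_ ?_ nodes T scalar ?_
    (by norm_num) (by norm_num) hmu (by exact_mod_cast hks)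
  · show (1 / 3 : ℝ) ≤ expo3 ⟨2, 2, 2⟩ _
    simp [expo3, expo, N3.fn, Fin.sum_univ_three]
    norm_num
  · show (1 / 3 : ℝ) ≤ expo3 ⟨2, 2, 2⟩ _
    simp [expo3, expo, N3.fn, Fin.sum_univ_three]
    norm_num
  · norm_num
  · norm_num
  · norm_num
  · intro lam l1 l2 hl
    have h2 : lam ^ 2 ≤ 1 / 5 := by
      push_cast at hl
      linarith
    exact SmallX.smallExcl_regular_X 0 1 2 rfl rfl rfl (by norm_num) hl
      (by push_cast at l2; linarith) h2

/-- The critical antiferromagnetic parameter of the quinary tree. -/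
theorem tendsto_adv_five_crit {lam : ℝ} (h : lam < 0) (hd : ((5 : ℕ) : ℝ) * lam ^ 2 = 1) :
    Tendsto (adv 3 (regLaw 5) lam) atTop (𝓝 0) :=
  tendsto_adv_five h.le (le_of_eq (by exact_mod_cast hd))

end Vale.Agent.P154.Anti.Reg5
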